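import Crest.Agent.X212.M.Lvi
import Crest.Agent.X212.Shi84.Nc
import Crest.Agent.X212.Cmp73.Spl
import Crest.Agent.X212.Eqv71.Job

/-!
# Row 212, layer M (helper17): energies of a pinching band

* `vol_band` : the volume of a thin pinched band;  `test_band` : the test with a cut-off at the scale `ρ`;
* `est : M.EstStmt J Adm`.
-/

set_option autoImplicit false
set_option linter.unusedSectionVars false
open Set Filter Topology Function MeasureTheory Module
open scoped ContDiff Manifold NNReal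

noncomputable section
namespace Crest.Agent.X212.Est17

open An An.Job Sob92 Cht98 Cyf70 M Pat85 Cmp73
open Met55 (ofFrame)
open Ps86 (Nk)

theorem prf_scale {θ : ℝ → ℝ} {B l : ℝ} (k : Prf θ B) (hl : 1 ≤ l) : Prf (fun s => θ (l * s)) (l * B) := by
  have b := (abs_nonneg _).trans (k.b0 0)
  refine ⟨k.sm.comp (contDiff_const.mul contDiff_id), fun s => (k.b0 _).trans (le_mul_of_one_le_left b hl),
    fun s => ?_, fun s hs => ?_⟩
  · rw [deriv_comp_mul_left, smul_eq_mul, abs_mul, abs_of_nonneg (by linarith)]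
    exact mul_le_mul_of_nonneg_left (k.b1 _) (by linarith)
  · rw [deriv_comp_mul_left, k.z _ (by rw [abs_mul, abs_of_nonneg (by linarith)]; nlinarith), smul_zero]

variable {X : Mf 4} {A κ : Type} [Fintype A] [Fintype κ] {M : Mark X A κ} (W : World M)
  (m : M.Cl) {c : M.Cl} {p : Prm A} {a : A} {η ρ : ℝ}

theorem mu_band (hp : M.pin a) {t : ℝ} (ht : t < 1) (h0 : 0 < η) (h : 1 - t ≤ η) :
    (ofFrame _ (fAt_nF hp ht)).μ (univ ×ˢ Ioo (-η) η) ≤ ENNReal.ofReal (16 * η ^ 4) * (M.gY a).μ univ := by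
  have := (M.bn a).cpt
  have ms : MeasurableSet ((univ : Set (M.bn a).Y.M) ×ˢ Ioo (-η) η) :=
    MeasurableSet.univ.prod measurableSet_Ioo
  rw [μ_nF hp ht, withDensity_apply _ ms]
  refine (setLIntegral_mono' ms (g := fun _ => ENNReal.ofReal ((2 * η) ^ 3)) fun q hq => ?_).trans (le_of_eq ?_)
  · have : rad t q.2 ≤ 2 * η := abs_le_of_sq_le_sq' (by rw [rad_sq]; nlinarith [hq.2.1, hq.2.2])
      (by positivity) |>.2
    exact ENNReal.ofReal_le_ofReal (pow_le_pow_left₀ (rad_pos (.inl ht)).le this 3)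
  · rw [setLIntegral_const, cylP_μ, Measure.prod_prod, Real.volume_Ioo, mul_comm ((M.gY a).μ _), ← mul_assoc,
      ← ENNReal.ofReal_mul (by positivity)]
    congr 2
    ring

variable (h : Lg M c p a) (ha : a ∈ M.sys.fr c.1) (hp : M.pin a)
include h ha hp

/-- the volume of a thin band -/
theorem vol_band (h0 : 0 < η) (h1 : η ≤ 1) (ht' : 1 - p.2 a ≤ η) :
    (W.F m c p).μ (hZ W.toCaps c a ⁻¹' Ioo (-η) η) ≤ ENNReal.ofReal (16 * η ^ 4) * (M.gY a).μ univ := by
  have ht : Mark.tv c.1 p.2 a < 1 := by rw [Mark.tv_fr ha]; exact h.O a ha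
  have nk : ∀ q : (M.bn a).Y.M × ℝ, q.2 ∈ Ioo (-η) η → Nk M c p.2 a q := fun q hq =>
    ⟨h.lt, (abs_lt.2 hq).trans_le h1, .inl ht⟩
  have ms : MeasurableSet ((univ : Set (M.bn a).Y.M) ×ˢ Ioo (-η) η) :=
    MeasurableSet.univ.prod measurableSet_Ioo
  have ld := fun q (hq : q ∈ (univ : Set (M.bn a).Y.M) ×ˢ Ioo (-η) η) => (nk q hq.2).ld W.toCaps
  have e := Int54.map_vol (F' := ofFrame _ (fAt_nF hp ht)) (F := (W.F m c p).toPre) (f := W.nj c a)
    ((W.Z c).dim.trans (Mark.finrank_cyl a).symm)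
    ((W.L m c).F_vol p) (Int54.isVol_iff_rf.2 rfl) ms
    (fun q hq => (ld q hq).mdifferentiableAt (by simp)) (fun q _ q' _ e => (M.bn a).oe.inj
      (W.inj (Mark.fr_not_mem ha ⟨_, rfl⟩) (Mark.fr_not_mem ha ⟨_, rfl⟩) e)) fun q hq => by
        rw [Ps86.F_e W m h.O]; exact (nk q hq.2).co W m
  refine (measure_mono (t := W.nj c a '' (univ ×ˢ Ioo (-η) η)) fun z hz => ?_).trans ?_
  · obtain ⟨y, -, h2⟩ := exists_of_hZ W.toCaps h.mem ((abs_lt.2 hz).trans_le (by linarith))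
    exact ⟨(y, _), ⟨trivial, hz⟩, h2⟩
  rw [← Measure.restrict_apply_univ, ← e, Measure.map_apply_of_aemeasurable
    (ContinuousOn.aemeasurable (fun q hq => (ld q hq).contMDiffAt.continuousAt.continuousWithinAt) ms)
    MeasurableSet.univ, preimage_univ, Measure.restrict_apply_univ]
  exact mu_band hp ht h0 (by rwa [Mark.tv_fr ha])

omit hp in
theorem hZ_band {b : ℝ} (hb : b ≤ 3) {z : (W.Z c).M} (hz : z ∈ W.nj c a '' {q | |q.2| ≤ b}) :
    |hZ W.toCaps c a z| ≤ b := by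
  obtain ⟨q, hq, rfl⟩ := hz
  rwa [hZ_nj _ h.mem (Mark.fr_not_mem ha ⟨_, rfl⟩) (hq.trans hb)]

/-- the test with a cut-off -/
theorem test_band {B β : ℝ} (k : Prf (fun s => 0 + 1 * chi (3 * s)) B) {f : (W.Z c).M → ℝ}
    (hf : Mp86.Dom (W.F m c p) β f) (f0 : ∀ x, 0 ≤ f x) (h0 : 0 < ρ) (h1 : 3 * ρ ≤ 1) (ht : 1 - p.2 a ≤ 3 * ρ) :
    ∫⁻ z in W.nj c a '' {q | |q.2| ≤ ρ}, ENNReal.ofReal (f z) ∂(W.F m c p).μ ≤ ENNReal.ofReal
      ((1 + β) ^ 2 * ((1 + Fintype.card (Option κ)) * B ^ 2 * 144 * (M.gY a).μ.real univ) * ρ ^ 2) := by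
  have := (M.bn a).cpt
  have r3 : 0 < 3 * ρ := by positivity
  have k' := prf_scale k ((one_le_inv₀ r3).2 h1)
  have sh := sm_hZ W.toCaps h.mem
  obtain ⟨c0, c1⟩ := CB_succ.1 (h.cb W m k')
  have e : ∀ s : ℝ, |3 * ((3 * ρ)⁻¹ * s)| = |s| / ρ := fun s => by
    rw [show 3 * ((3 * ρ)⁻¹ * s) = s / ρ by field_simp, abs_div, abs_of_pos h0]
  have z0 : ∀ z, 2 * ρ ≤ |hZ W.toCaps c a z| → 0 + 1 * chi (3 * ((3 * ρ)⁻¹ * hZ W.toCaps c a z)) = 0 :=
    fun z hz => by rw [chi_eq_zero (by rwa [e, le_div_iff₀ h0]), mul_zero, add_zero]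
  have cl : IsClosed {z | |hZ W.toCaps c a z| ≤ 2 * ρ} := isClosed_le sh.continuous.abs continuous_const
  have ts : tsupport (fun z => 0 + 1 * chi (3 * ((3 * ρ)⁻¹ * hZ W.toCaps c a z))) ⊆
      hZ W.toCaps c a ⁻¹' Ioo (-(3 * ρ)) (3 * ρ) :=
    fun z hz => abs_lt.1 (lt_of_le_of_lt (closure_minimal (s := support _)
      (fun z hz => (not_le.1 fun k => hz (z0 z k)).le) cl hz) (by linarith))
  have cp : HasCompactSupport fun z => 0 + 1 * chi (3 * ((3 * ρ)⁻¹ * hZ W.toCaps c a z)) :=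
    ((isCompact_univ.prod (isCompact_Icc (a := (-1 : ℝ)) (b := 1))).image_of_continuousOn (f := W.nj c a)
      fun q _ => (W.ld_nj (Mark.fr_not_mem ha ⟨q, rfl⟩)).contMDiffAt.continuousAt.continuousWithinAt).of_isClosed_subset
      isClosed_closure fun z hz =>
        let ⟨y, _, e⟩ := exists_of_hZ W.toCaps h.mem (z := z) ((abs_lt.2 (ts hz)).trans_le (by linarith))
        ⟨_, ⟨trivial, by linarith [(ts hz).1], by linarith [(ts hz).2]⟩, e⟩
  have v := vol_band W m h ha hp r3 h1 ht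
  have fin : ENNReal.ofReal (16 * (3 * ρ) ^ 4) * (M.gY a).μ univ ≠ ⊤ :=
    ENNReal.mul_ne_top ENNReal.ofReal_ne_top isCompact_univ.measure_ne_top
  refine (lintegral_mono_set fun z hz => ?_).trans ((Shi84.dom_test hf f0 (k'.smc sh) cp).trans
    (ENNReal.ofReal_le_ofReal ?_))
  · show 1 / 2 ≤ (0 + 1 * chi _) ^ 2
    rw [chi_eq_one (by rw [e, div_le_one h0]; exact hZ_band W h ha (by linarith) hz)]
    norm_num
  rw [mul_assoc]
  refine mul_le_mul_of_nonneg_left ?_ (sq_nonneg _)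
  rw [← setIntegral_eq_integral_of_forall_compl_eq_zero (s := hZ W.toCaps c a ⁻¹' Ioo (-(3 * ρ)) (3 * ρ))
    fun z hz => by simp only [image_eq_zero_of_notMem_tsupport fun k => hz (ts k), fun i =>
      image_eq_zero_of_notMem_tsupport fun k => hz (ts ((W.F m c p).tsupport_D _ i k)), zero_pow two_ne_zero,
      Finset.sum_const_zero, add_zero]]
  refine (Real.le_norm_self _).trans ((norm_setIntegral_le_of_norm_le_const (C := (1 + Fintype.card (Option κ)) *
    ((3 * ρ)⁻¹ * B) ^ 2) (v.trans_lt fin.lt_top) fun z _ => ?_).trans ?_)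
  · rw [Real.norm_of_nonneg (by positivity), add_mul, one_mul (_ ^ 2), ← nsmul_eq_mul]
    exact add_le_add (sq_le_sq' (abs_le.1 (c0 z)).1 (abs_le.1 (c0 z)).2) (Finset.sum_le_card_nsmul _ _ _
      fun i _ => sq_le_sq' (abs_le.1 (CB_zero.1 (c1 i) z)).1 (abs_le.1 (CB_zero.1 (c1 i) z)).2)
  · refine (mul_le_mul_of_nonneg_left (ENNReal.toReal_mono fin v) (by positivity)).trans_eq ?_
    rw [ENNReal.toReal_mul, ENNReal.toReal_ofReal (by positivity), Measure.real]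
    field_simp
    ring

end Crest.Agent.X212.Est17

namespace Crest.Agent.X212.Est17

open An An.Job Sob92 Cht98 M Pat85 Cmp73

variable {Wi : Type} {X : Mf 4} {A κ lam : Type} [Fintype A] [Fintype κ] [Fintype lam]
  [DecidableEq lam] {M : Mark X A κ} {W : World M} {N : ML M lam} {Λ : Lns W N} {A' h : Type}
  [Fintype A'] [DecidableEq A'] [Fintype h] {r n : ℕ} {J : Job Wi Λ A' h r n}
  {Adm : (Wi →₀ ℝ) → Prop} {c : M.Cl} {p : Prm A} {a : A}

/-- the weights are large on a pinched band -/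
theorem one_le_wt (hJ : J.OK) (hb : p ∈ M.Br c.1) (ha : a ∈ M.sys.fr c.1) (hp : M.pin a) (ht : 1 / 2 ≤ p.2 a)
    (x : (W.Z c).M) {z : (W.Z c).M} (hz : |hZ W.toCaps c a z| < 3) : 1 ≤ J.wt c p x z := by
  have u : J.u0 c p z = 0 := le_antisymm ((sN_le le_rfl fun a' b k => dep_off _ fun e => by
    have H := (hJ.nk c a' b p k).hn k
    obtain ⟨y, s, hs, e'⟩ := H.of_tgt e
    obtain ⟨y', k1, k2⟩ := exists_of_hZ W.toCaps (.inr ha) hz
    refine Mark.not_cmp ⟨_, rfl⟩ ⟨_, W.inj (H.off _ s hs) k1 (((H.ψ y s hs).symm.trans e').trans k2.symm)⟩ ?_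
    cases b
    · exact hb.1.2 (show p.2 a ≠ 0 by linarith) (show p.2 a' ≠ 0 by linarith [k.2.2.2.2.2])
        fun e => k.1 (e ▸ hp)
    · exact ha.2 _ k.2.2.2).trans_eq (mul_zero _)) u0_nonneg
  simp [wt, wt', u, (Real.exp_pos _).le]

/-- **PN-EST** -/
theorem est (hJ : J.OK) : EstStmt J Adm := by
  intro α c c₀ F k a h₀ hn hp
  have ha := Mark.mem_fr k.sub h₀ hn
  have hb : ∀ i, F.p i ∈ M.Br c.1 := fun i => hJ.memBr k.mem (k.sol i).ov
  have t : Tendsto (fun i => (F.p i).2 a) F.l (𝓝 1) := by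
    rw [← show F.p₀.2 a = 1 from k.inf.ge h₀]
    exact (((continuous_apply a).comp continuous_snd).tendsto _).comp ((hJ.sm.continuous.tendsto _).comp k.s)
  have e := t.eventually (eventually_ge_nhds (show (1 / 2 : ℝ) < 1 by norm_num))
  have lg : ∀ i, 1 / 2 ≤ (F.p i).2 a → Lg M c (F.p i) a := fun i hi =>
    ⟨.inr ha, Mark.lt_of_br (hb i).1 ha hi, hJ.memO k.mem (k.sol i).ov⟩
  obtain ⟨S, C, b⟩ := k.bd
  refine ⟨fun ε hε => ?_, (C ^ 2).toNNReal, e.mono fun i hi => ?_⟩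
  · obtain ⟨B, hB⟩ := exists_prf (k := 3) (by norm_num) 0 1
    have c : ∀ K : ℝ, Tendsto (fun ρ : ℝ => K * ρ ^ 2) (𝓝[>] 0) (𝓝 0) := fun K =>
      (Continuous.tendsto' (by fun_prop) 0 0 (by simp)).mono_left nhdsWithin_le_nhds
    filter_upwards [(c ((1 + C) ^ 2 * ((1 + Fintype.card (Option κ)) * B ^ 2 * 144 * (M.gY a).μ.real univ))).eventually
      (eventually_le_nhds hε), Ioo_mem_nhdsGT (show (0 : ℝ) < 1 / 3 by norm_num)]
      with ρ h1 h2
    filter_upwards [e, t.eventually (eventually_ge_nhds (show 1 - 3 * ρ < 1 by linarith [h2.1]))] with i h3 h4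
    exact (test_band W J.m (lg i h3) ha hp hB (b i).g.p2 (fun _ => sq_nonneg _) h2.1 (by linarith [h2.2])
      (by linarith)).trans (ENNReal.ofReal_le_ofReal h1)
  · obtain ⟨x⟩ : Nonempty (W.Z c).M := inferInstance
    refine (lintegral_mono_set (t := {z | |hZ W.toCaps c a z| < 3}) fun z hz =>
      (hZ_band W (lg i hi) ha (by norm_num) hz).trans_lt (by norm_num)).trans ((setLIntegral_mono'
        (isOpen_lt (sm_hZ _ (.inr ha)).continuous.abs continuous_const).measurableSet fun z hz => ?_).trans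
          ((setLIntegral_le_lintegral _ _).trans (lint_le (b i).g.le x)))
    exact ENNReal.ofReal_le_ofReal (pow_le_pow_left₀ (norm_nonneg _)
      (le_mul_of_one_le_left (norm_nonneg _) (one_le_wt hJ (hb i) ha hp hi x hz)) 2)

end Crest.Agent.X212.Est17
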